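import Vale.Agent.P223.X.Main

/-! The simplicial volume is bounded by the weights of every equivariant partition of unity. -/

namespace Vale.Agent.P223.R2.H395

open scoped ContDiff
open MeasureTheory Vale.Agent.P223.H Vale.Agent.P223.X Vale.Agent.P223.X.Main

theorem svX_le_wt (hForm : SpecFormX) (hCyc : SpecFormCyc) (hFund : SpecFundX)
    (hMT : MT.SpecMT) (hDual : MT.SpecDual)
    (hFin : SpecFin) {n : ℕ} {M X Γ I : Type} [TopologicalSpace M] [TopologicalSpace X] [Group Γ]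
    [MulAction Γ X] [Fintype I] [T2Space X] [SimplyConnectedSpace X] [T2Space M]
    (C : Cov n M X Γ I) (hn : 1 ≤ n) (hinf : ∃ s : ℕ → X, MT.Dist Γ s)
    {χ : I → E n → ℝ} (hχ : Part C χ) (P : PUX C Unit) :
    svX C ≤ ENNReal.ofReal
      (∑ᶠ l ∈ {l : Fin (n + 1) → Γ × Unit | (l 0).1 = 1}, |P.wt χ l|) := by
  classical
  have : ContinuousConstSMul Γ X := ⟨C.cont⟩
  refine ENNReal.le_of_forall_pos_le_add fun δ hδ _ => ?_
  have hδ2 : (0 : ℝ) < (δ : ℝ) / 2 := by positivity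
  set N : ℝ := ∑ᶠ l ∈ {l : Fin (n + 1) → Γ × Unit | (l 0).1 = 1}, |P.wt χ l| with hNdef
  obtain ⟨ι, _, P₀, q, S, hq, hinj, hvert, hfund⟩ := hFund n M X Γ I C χ hn hχ
  set T : Set (Fin (n + 1) → Γ × ι) := {l | (l 0).1 = 1} with hT
  set z₀ := ∑ᶠ l ∈ T, Finsupp.single (C.π.comp (S l)) (P₀.wt χ l) with hz₀
  have hfin := hFin n M X Γ I C χ ι P₀
  have hfin' := hFin n M X Γ I C χ Unit P
  -- the chain as a finitely supported function
  let a : (Fin (n + 1) → Γ × ι) →₀ ℝ := Finsupp.onFinset hfin.toFinset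
    (fun l => if (l 0).1 = 1 then P₀.wt χ l else 0) (by
      intro l hl
      rw [Set.Finite.mem_toFinset]
      by_cases h : (l 0).1 = 1
      · rw [if_pos h] at hl; exact ⟨h, hl⟩
      · rw [if_neg h] at hl; exact absurd rfl hl)
  have ha : ∀ l, a l = if (l 0).1 = 1 then P₀.wt χ l else 0 := fun l => rfl
  have ha1 : ∀ l ∈ T, P₀.wt χ l = a l := fun l hl => (if_pos hl).symm
  have ha0 : ∀ l, l ∉ T → a l = 0 := fun l hl => if_neg hl
  have haw : ∀ l ∈ a.support, P₀.wt χ l ≠ 0 := by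
    intro l hl h
    rw [Finsupp.mem_support_iff, ha, h, ite_self] at hl
    exact hl rfl
  let a' : (Fin (n + 1) → Γ × Unit) →₀ ℝ := Finsupp.onFinset hfin'.toFinset
    (fun l => if (l 0).1 = 1 then P.wt χ l else 0) (by
      intro l hl
      rw [Set.Finite.mem_toFinset]
      by_cases h : (l 0).1 = 1
      · rw [if_pos h] at hl; exact ⟨h, hl⟩
      · rw [if_neg h] at hl; exact absurd rfl hl)
  have ha1' : ∀ l ∈ {l : Fin (n + 1) → Γ × Unit | (l 0).1 = 1}, P.wt χ l = a' l :=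
    fun l hl => (if_pos hl).symm
  have ha0' : ∀ l, l ∉ {l : Fin (n + 1) → Γ × Unit | (l 0).1 = 1} → a' l = 0 :=
    fun l hl => if_neg hl
  have hz : z₀ = a.sum fun l r => Finsupp.single (C.π.comp (S l)) r :=
    finsum_eq T _ a (fun l r => Finsupp.single (C.π.comp (S l)) r) ha0
      (fun l => Finsupp.single_zero _) fun l hl => by rw [ha1 l hl]
  have hN' : N = a'.sum fun l r => |r| :=
    finsum_eq _ _ a' (fun _ r => |r|) ha0' (fun l => abs_zero) fun l hl => by rw [ha1' l hl]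
  have key : ∀ c : Chain (n + 1) M →ₗ[ℝ] ℝ, (∀ σ, |c (Finsupp.single σ 1)| ≤ 1) →
      (∀ w, c (bd (n + 1) w) = 0) → |c z₀| ≤ N := by
    intro c hc1 hc
    obtain ⟨F, hF1, hFi, hFc, hF⟩ := hMT M X Γ C.π C.orb hinf n c hn hc1 hc
    have h1 := hF ι q (fun i j ⟨γ, h⟩ => (hq i j γ h).1) a S (fun l hl => hinj l (haw l hl))
      (fun l hl i => hvert l (haw l hl) i) (by rw [← hz]; exact hfund.1) (fun β hβ => by
        rw [← hCyc n M X Γ I C χ hn hχ ι P₀ β hβ]
        exact (finsum_eq T _ a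
          (fun l r => r * ∑ i : Fin (n + 1), (-1 : ℝ) ^ (i : ℕ) * β (l ∘ i.succAbove)) ha0
          (fun l => zero_mul _) fun l hl => by rw [ha1 l hl]).symm)
    rw [hz, h1]
    have h2 := hForm n M X Γ I C χ F hn hχ hFi hFc ι Unit P₀ P
    have h3 : (a.sum fun l r => r * F fun i => (l i).1) =
        ∑ᶠ l ∈ T, P₀.wt χ l * F fun k => (l k).1 :=
      (finsum_eq T _ a (fun l r => r * F fun i => (l i).1) ha0 (fun l => zero_mul _)
        fun l hl => by rw [ha1 l hl]).symm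
    have h4 : (∑ᶠ l ∈ {l : Fin (n + 1) → Γ × Unit | (l 0).1 = 1},
        P.wt χ l * F fun k => (l k).1) = a'.sum fun l r => r * F fun i => (l i).1 :=
      finsum_eq _ _ a' (fun l r => r * F fun i => (l i).1) ha0' (fun l => zero_mul _)
        fun l hl => by rw [ha1' l hl]
    rw [h3, h2, h4, hN', Finsupp.sum, Finsupp.sum]
    refine (Finset.abs_sum_le_sum_abs _ _).trans (Finset.sum_le_sum fun l _ => ?_)
    rw [abs_mul]
    exact mul_le_of_le_one_right (abs_nonneg _) (hF1 _)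
  obtain ⟨w, hw⟩ := hDual M n z₀ N key (δ / 2) hδ2
  have h1 : svX C ≤ ENNReal.ofReal (l1 (z₀ + bd (n + 1) w)) := iInf₂_le _ (isFund_add hfund w)
  calc svX C ≤ _ := h1
    _ ≤ ENNReal.ofReal (N + δ / 2) := ENNReal.ofReal_le_ofReal hw
    _ ≤ ENNReal.ofReal N + ENNReal.ofReal (δ / 2) := ENNReal.ofReal_add_le
    _ ≤ ENNReal.ofReal N + ENNReal.ofReal δ := by
      gcongr
      linarith
    _ = _ := by rw [ENNReal.ofReal_coe_nnreal]

end Vale.Agent.P223.R2.H395
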